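import Mathlib

namespace Vale.Agent.Lib.P368

open Finset

/-- Amplitudes of a pure state of a register of qubits indexed by `Q`, in the computational
basis: `ψ z` is the amplitude of the basis state `|z⟩`, `z : Q → Bool`. -/
abbrev StateVec (Q : Type) : Type := (Q → Bool) → ℂ

section Defs

variable {Q : Type} [Fintype Q] [DecidableEq Q]

/-- A layer of one-qubit gates: qubit `p` is acted on by the `2 × 2` matrix `u p`
(tensor product over all qubits). -/
noncomputable def oneQubitLayer (u : Q → Matrix Bool Bool ℂ) (ψ : StateVec Q) : StateVec Q :=
  fun z => ∑ w : Q → Bool, (∏ p, u p (z p) (w p)) * ψ w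

/-- Phase of the multi-controlled `Z` gate on the qubit set `S` at the basis state `z`:
`-1` if all qubits of `S` are `1`, and `1` otherwise. -/
def czSign (S : Finset Q) (z : Q → Bool) : ℂ := if ∀ p ∈ S, z p = true then -1 else 1

/-- A layer of multi-controlled `Z` gates, one on each qubit set `S ∈ L`. -/
def czLayer (L : Finset (Finset Q)) (ψ : StateVec Q) : StateVec Q :=
  fun z => (∏ S ∈ L, czSign S z) * ψ z

/-- A circuit in `CZ` normal form: a first layer of one-qubit gates, then `steps.length` rounds,
each a layer of multi-controlled `Z` gates followed by a layer of one-qubit gates, then a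
last layer of one-qubit gates. -/
structure Circuit (Q : Type) where
  first : Q → Matrix Bool Bool ℂ
  steps : List (Finset (Finset Q) × (Q → Matrix Bool Bool ℂ))
  last : Q → Matrix Bool Bool ℂ

/-- All one-qubit gates are unitary and the gates of each entangling layer have pairwise
disjoint supports. -/
def Circuit.WellFormed (C : Circuit Q) : Prop :=
  (∀ p, C.first p ∈ Matrix.unitaryGroup Bool ℂ) ∧
  (∀ p, C.last p ∈ Matrix.unitaryGroup Bool ℂ) ∧
  ∀ s ∈ C.steps, (s.1 : Set (Finset Q)).PairwiseDisjoint id ∧
    ∀ p, s.2 p ∈ Matrix.unitaryGroup Bool ℂ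

/-- The rounds of the circuit applied in order. -/
noncomputable def runSteps (steps : List (Finset (Finset Q) × (Q → Matrix Bool Bool ℂ)))
    (ψ : StateVec Q) : StateVec Q :=
  steps.foldl (fun φ s => oneQubitLayer s.2 (czLayer s.1 φ)) ψ

/-- The state produced by the circuit from the initial state `ψ`. -/
noncomputable def Circuit.run (C : Circuit Q) (ψ : StateVec Q) : StateVec Q :=
  oneQubitLayer C.last (runSteps C.steps (oneQubitLayer C.first ψ))

/-- The computational basis state `|z⟩`. -/
def basisState (z : Q → Bool) : StateVec Q := fun w => if w = z then 1 else 0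

/-- Probability that a computational-basis measurement of qubit `q` in state `ψ` gives `b`. -/
noncomputable def measProb (ψ : StateVec Q) (q : Q) (b : Bool) : ℝ :=
  ∑ z : Q → Bool, if z q = b then Complex.normSq (ψ z) else 0

/-- Probability that the circuit outputs `b` on qubit `q` when the input bit `x a` is loaded on
qubit `inp a` and all other qubits (ancillas) start in `0`. -/
noncomputable def Circuit.outProb (C : Circuit Q) {α : Type} (inp : α ↪ Q) (q : Q)
    (x : α → Bool) (b : Bool) : ℝ :=
  measProb (C.run (basisState (Function.extend inp x fun _ => false))) q b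

end Defs

/-- Parity of a bit string. -/
def parity {α : Type} [Fintype α] (x : α → Bool) : Bool :=
  decide (Odd (univ.filter fun a => x a = true).card)

/-- Parity correlation: the average over uniform inputs `x` of
`Pr[output = parity x] - Pr[output ≠ parity x]`. -/
noncomputable def Circuit.parityCorrelation {Q : Type} [Fintype Q] [DecidableEq Q]
    (C : Circuit Q) {α : Type} [Fintype α] [DecidableEq α] (inp : α ↪ Q) (q : Q) : ℝ :=
  (∑ x : α → Bool, (C.outProb inp q x (parity x) - C.outProb inp q x (!parity x))) /
    ((2 ^ Fintype.card α : ℕ) : ℝ)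

end Vale.Agent.Lib.P368
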