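import Vale.Agent.Lib.P368.Layer

namespace Vale.Agent.Lib.P368

open Finset

section Comb

variable {ι : Type} [Fintype ι] [DecidableEq ι]

/-- Indicator that all bits of `c` in the set `D` are `1`. -/
def bitR (D : Finset ι) (c : ι → Bool) : ℝ := if ∀ i ∈ D, c i = true then 1 else 0

theorem bitR_mul (D D' : Finset ι) (c : ι → Bool) :
    bitR D c * bitR D' c = bitR (D ∪ D') c := by
  unfold bitR
  by_cases h1 : ∀ i ∈ D, c i = true
  · by_cases h2 : ∀ i ∈ D', c i = true
    · have h3 : ∀ i ∈ D ∪ D', c i = true := by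
        intro i hi
        rcases Finset.mem_union.mp hi with h | h
        · exact h1 i h
        · exact h2 i h
      rw [if_pos h1, if_pos h2, if_pos h3]
      norm_num
    · have h3 : ¬ ∀ i ∈ D ∪ D', c i = true :=
        fun h => h2 fun i hi => h i (Finset.mem_union_right _ hi)
      rw [if_pos h1, if_neg h2, if_neg h3]
      norm_num
  · have h3 : ¬ ∀ i ∈ D ∪ D', c i = true :=
      fun h => h1 fun i hi => h i (Finset.mem_union_left _ hi)
    rw [if_neg h1, if_neg h3]
    norm_num

theorem prod_bitR (J : Finset (Finset ι)) (c : ι → Bool) :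
    ∏ D ∈ J, bitR D c = bitR (J.biUnion id) c := by
  induction J using Finset.induction_on with
  | empty => simp [bitR]
  | insert D J hD ih =>
    rw [Finset.prod_insert hD, ih, bitR_mul, Finset.biUnion_insert]
    rfl

/-- The combinatorial bound: a bounded function of few conjunction bits, summed against a
weight whose sums against every conjunction are at most `1` in modulus. -/
theorem comb_bound (B : Finset (Finset ι)) (α ν : (ι → Bool) → ℝ)
    (hα : ∀ c, |α c| ≤ 1)
    (hinv : ∀ c c', (∀ D ∈ B, ((∀ i ∈ D, c i = true) ↔ (∀ i ∈ D, c' i = true))) →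
      α c = α c')
    (hν : ∀ D : Finset ι, |∑ c, ν c * bitR D c| ≤ 1) :
    |∑ c, ν c * α c| ≤ 3 ^ B.card := by
  classical
  set β : (ι → Bool) → Finset (Finset ι) :=
    fun c => B.filter (fun D => ∀ i ∈ D, c i = true) with hβ
  set Φ : Finset (Finset ι) → ℝ :=
    fun I => if h : ∃ c, β c = I then α (Classical.choose h) else 0 with hΦ
  have hΦβ : ∀ c, Φ (β c) = α c := by
    intro c
    have hex : ∃ c', β c' = β c := ⟨c, rfl⟩
    have e : Φ (β c) = α (Classical.choose hex) := by
      rw [hΦ]
      simp only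
      rw [dif_pos hex]
    rw [e]
    apply hinv
    intro D hD
    have h := Classical.choose_spec hex
    have h1 : D ∈ β (Classical.choose hex) ↔ D ∈ β c := by rw [h]
    simp only [hβ, Finset.mem_filter, hD, true_and] at h1
    exact h1
  have hΦle : ∀ I, |Φ I| ≤ 1 := by
    intro I
    rw [hΦ]
    simp only
    split_ifs
    · exact hα _
    · simp
  have hexp : ∀ c, α c = ∑ I ∈ B.powerset,
      Φ I * ((∏ D ∈ I, bitR D c) * ∏ D ∈ B \ I, (1 - bitR D c)) := by
    intro c
    rw [Finset.sum_eq_single (β c)]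
    · have h1 : ∏ D ∈ β c, bitR D c = 1 := by
        apply Finset.prod_eq_one
        intro D hD
        have := (Finset.mem_filter.mp hD).2
        unfold bitR
        rw [if_pos this]
      have h2 : ∏ D ∈ B \ β c, (1 - bitR D c) = 1 := by
        apply Finset.prod_eq_one
        intro D hD
        have hD' := Finset.mem_sdiff.mp hD
        have : ¬ ∀ i ∈ D, c i = true := fun h => hD'.2 (Finset.mem_filter.mpr ⟨hD'.1, h⟩)
        unfold bitR
        rw [if_neg this]
        norm_num
      rw [h1, h2, hΦβ]
      ring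
    · intro I hI hne
      have hIB := Finset.mem_powerset.mp hI
      have hw : (∃ D ∈ I, D ∉ β c) ∨ (∃ D ∈ β c, D ∉ I) := by
        by_contra hcon
        rw [not_or] at hcon
        apply hne
        apply Finset.Subset.antisymm
        · intro D hD
          by_contra hD'
          exact hcon.1 ⟨D, hD, hD'⟩
        · intro D hD
          by_contra hD'
          exact hcon.2 ⟨D, hD, hD'⟩
      rcases hw with ⟨D, hDI, hDβ⟩ | ⟨D, hDβ, hDI⟩
      · have hbit : bitR D c = 0 := by
          have : ¬ ∀ i ∈ D, c i = true := fun h => hDβ (Finset.mem_filter.mpr ⟨hIB hDI, h⟩)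
          unfold bitR
          rw [if_neg this]
        rw [Finset.prod_eq_zero hDI hbit]
        ring
      · have hbit : 1 - bitR D c = 0 := by
          have := (Finset.mem_filter.mp hDβ).2
          unfold bitR
          rw [if_pos this]
          ring
        have hmem : D ∈ B \ I := Finset.mem_sdiff.mpr ⟨(Finset.mem_filter.mp hDβ).1, hDI⟩
        rw [Finset.prod_eq_zero hmem hbit]
        ring
    · intro h
      exact absurd (Finset.mem_powerset.mpr (Finset.filter_subset _ _)) h
  have hexp2 : ∀ (c : ι → Bool) (I : Finset (Finset ι)), ∏ D ∈ B \ I, (1 - bitR D c) =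
      ∑ T ∈ (B \ I).powerset, (-1) ^ T.card * bitR (T.biUnion id) c := by
    intro c I
    have h1 : ∀ D, 1 - bitR D c = (- bitR D c) + 1 := fun D => by ring
    simp only [h1]
    rw [Finset.prod_add]
    refine Finset.sum_congr rfl fun T _ => ?_
    rw [Finset.prod_const_one, mul_one, Finset.prod_neg, prod_bitR]
  have hrewrite : ∑ c, ν c * α c = ∑ I ∈ B.powerset, ∑ T ∈ (B \ I).powerset,
      Φ I * (-1) ^ T.card * ∑ c, ν c * bitR (I.biUnion id ∪ T.biUnion id) c := by
    have h1 : ∀ c, ν c * α c = ∑ I ∈ B.powerset, ∑ T ∈ (B \ I).powerset,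
        Φ I * (-1) ^ T.card * (ν c * bitR (I.biUnion id ∪ T.biUnion id) c) := by
      intro c
      rw [hexp c, Finset.mul_sum]
      refine Finset.sum_congr rfl fun I _ => ?_
      rw [hexp2 c I, prod_bitR, Finset.mul_sum, Finset.mul_sum, Finset.mul_sum]
      refine Finset.sum_congr rfl fun T _ => ?_
      rw [← bitR_mul]
      ring
    simp only [h1]
    rw [Finset.sum_comm]
    refine Finset.sum_congr rfl fun I _ => ?_
    rw [Finset.sum_comm]
    refine Finset.sum_congr rfl fun T _ => ?_
    rw [Finset.mul_sum]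
  rw [hrewrite]
  have hterm : ∀ I ∈ B.powerset, |∑ T ∈ (B \ I).powerset,
      Φ I * (-1) ^ T.card * ∑ c, ν c * bitR (I.biUnion id ∪ T.biUnion id) c| ≤
      (2 : ℝ) ^ (B.card - I.card) := by
    intro I hI
    have hIB := Finset.mem_powerset.mp hI
    refine (Finset.abs_sum_le_sum_abs _ _).trans ?_
    have hcard : ((B \ I).powerset.card : ℝ) = (2 : ℝ) ^ (B.card - I.card) := by
      rw [Finset.card_powerset, Finset.card_sdiff_of_subset hIB]
      push_cast
      rfl
    rw [← hcard]
    have hle : ∀ T ∈ (B \ I).powerset,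
        |Φ I * (-1) ^ T.card * ∑ c, ν c * bitR (I.biUnion id ∪ T.biUnion id) c| ≤ (1 : ℝ) := by
      intro T _
      rw [abs_mul, abs_mul, abs_pow, abs_neg, abs_one, one_pow, mul_one]
      calc |Φ I| * |∑ c, ν c * bitR (I.biUnion id ∪ T.biUnion id) c| ≤ 1 * 1 :=
            mul_le_mul (hΦle I) (hν _) (abs_nonneg _) zero_le_one
        _ = 1 := by norm_num
    calc ∑ T ∈ (B \ I).powerset,
          |Φ I * (-1) ^ T.card * ∑ c, ν c * bitR (I.biUnion id ∪ T.biUnion id) c|
        ≤ ∑ T ∈ (B \ I).powerset, (1 : ℝ) := Finset.sum_le_sum hle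
      _ = ((B \ I).powerset.card : ℝ) := by rw [Finset.sum_const, nsmul_eq_mul, mul_one]
  refine (Finset.abs_sum_le_sum_abs _ _).trans ?_
  refine (Finset.sum_le_sum hterm).trans ?_
  have h3 := Finset.sum_pow_mul_eq_add_pow (1 : ℝ) 2 B
  simp only [one_pow, one_mul] at h3
  rw [h3]
  norm_num

/-- Signed sums over inputs of products of `[0,1]`-valued one-qubit weights are at most `1`
in modulus. -/
theorem signed_sum_bound {n : ℕ} (inI : Fin n ↪ ι) (w : ι → Bool → ℝ)
    (h0 : ∀ i e, 0 ≤ w i e) (h1 : ∀ i e, w i e ≤ 1) :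
    |∑ x : Fin n → Bool, (∏ j, (if x j = true then (-1 : ℝ) else 1)) *
        ∏ i, w i (Function.extend inI x (fun _ => false) i)| ≤ 1 := by
  classical
  set R : Finset ι := Finset.univ.map inI with hR
  have hsplit : ∀ x : Fin n → Bool, ∏ i, w i (Function.extend inI x (fun _ => false) i) =
      (∏ j, w (inI j) (x j)) * ∏ i ∈ Rᶜ, w i false := by
    intro x
    rw [← Finset.prod_mul_prod_compl R]
    congr 1
    · rw [hR, Finset.prod_map]
      refine Finset.prod_congr rfl fun j _ => ?_
      rw [inI.injective.extend_apply]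
    · refine Finset.prod_congr rfl fun i hi => ?_
      rw [Function.extend_apply']
      rintro ⟨j, rfl⟩
      exact (Finset.mem_compl.mp hi) (by rw [hR]; exact Finset.mem_map_of_mem _ (Finset.mem_univ j))
  set A : ℝ := ∏ i ∈ Rᶜ, w i false with hA
  have hA0 : 0 ≤ A := Finset.prod_nonneg fun i _ => h0 i false
  have hA1 : A ≤ 1 := Finset.prod_le_one (fun i _ => h0 i false) (fun i _ => h1 i false)
  have hsum : (∑ x : Fin n → Bool, (∏ j, (if x j = true then (-1 : ℝ) else 1)) *
      ∏ i, w i (Function.extend inI x (fun _ => false) i)) =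
      (∏ j, (w (inI j) false - w (inI j) true)) * A := by
    simp only [hsplit]
    have e1 : (∏ j, (w (inI j) false - w (inI j) true)) =
        ∏ j, ∑ b : Bool, (if b = true then (-1 : ℝ) else 1) * w (inI j) b := by
      refine Finset.prod_congr rfl fun j _ => ?_
      rw [Fintype.sum_bool]
      simp
      ring
    rw [e1, ← sum_prod_eq_prod_sum_real
      (fun j b => (if b = true then (-1 : ℝ) else 1) * w (inI j) b), Finset.sum_mul]
    refine Finset.sum_congr rfl fun x _ => ?_
    rw [Finset.prod_mul_distrib]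
    ring
  rw [hsum, abs_mul, Finset.abs_prod, abs_of_nonneg hA0]
  have hP : ∏ j, |w (inI j) false - w (inI j) true| ≤ 1 := by
    refine Finset.prod_le_one (fun j _ => abs_nonneg _) (fun j _ => ?_)
    rw [abs_le]
    constructor
    · linarith [h0 (inI j) false, h1 (inI j) true]
    · linarith [h1 (inI j) false, h0 (inI j) true]
  calc (∏ j, |w (inI j) false - w (inI j) true|) * A ≤ 1 * 1 :=
        mul_le_mul hP hA1 hA0 zero_le_one
    _ = 1 := by norm_num

end Comb

end Vale.Agent.Lib.P368
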