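import Vale.Agent.Lib.P368.Fiber

namespace Vale.Agent.Lib.P368

open Finset

variable {κ ι : Type} [Fintype κ] [DecidableEq κ] [Fintype ι] [DecidableEq ι]

/-- The first-part factor of the product state after the first layer. -/
noncomputable def chiK (first : κ ⊕ ι → Matrix Bool Bool ℂ) (zK : κ → Bool) : StateVec κ :=
  fun a => ∏ k, first (Sum.inl k) (a k) (zK k)

/-- The amplitude of the content `c` of the second part after the first layer. -/
noncomputable def lamI (first : κ ⊕ ι → Matrix Bool Bool ℂ) (zI : ι → Bool) (c : ι → Bool) : ℂ :=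
  ∏ i, first (Sum.inr i) (c i) (zI i)

/-- Output probability conditioned on the content `c` of the second part. -/
noncomputable def alphaK (C : Circuit (κ ⊕ ι)) (q : κ) (b : Bool) (zK : κ → Bool)
    (c : ι → Bool) : ℝ :=
  measProb (oneQubitLayer (singleGate q (C.last (Sum.inl q)))
    (midK C.steps c (chiK C.first zK))) q b

theorem oneQubitLayer_basisState {Q : Type} [Fintype Q] [DecidableEq Q]
    (u : Q → Matrix Bool Bool ℂ) (z0 z : Q → Bool) :
    oneQubitLayer u (basisState z0) z = ∏ p, u p (z p) (z0 p) := by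
  rw [oneQubitLayer_apply]
  unfold basisState
  simp

theorem measProb_elim (Ψ : StateVec (κ ⊕ ι)) (q : κ) (b : Bool) :
    measProb Ψ (Sum.inl q) b = ∑ c : ι → Bool, measProb (fun a => Ψ (Sum.elim a c)) q b := by
  unfold measProb
  rw [sum_sumElim, Finset.sum_comm]
  rfl

theorem singleGate_mem {Q : Type} [Fintype Q] [DecidableEq Q] (q : Q) (m : Matrix Bool Bool ℂ)
    (hm : m ∈ Matrix.unitaryGroup Bool ℂ) (p : Q) :
    singleGate q m p ∈ Matrix.unitaryGroup Bool ℂ := by
  unfold singleGate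
  split_ifs
  · exact hm
  · exact one_mem _

/-- Decomposition of the output probability over the contents of the second part. -/
theorem outProb_decomp (C : Circuit (κ ⊕ ι)) (hC : C.WellFormed)
    (hdiag : ∀ s ∈ C.steps, ∀ i : ι, (s.2 (Sum.inr i)).IsDiag) (q : κ) (b : Bool)
    (zK : κ → Bool) (zI : ι → Bool) :
    measProb (C.run (basisState (Sum.elim zK zI))) (Sum.inl q) b =
      ∑ c : ι → Bool, Complex.normSq (lamI C.first zI c) * alphaK C q b zK c := by
  unfold Circuit.run
  rw [measProb_oneQubitLayer_local _ hC.2.1, measProb_elim]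
  refine Finset.sum_congr rfl fun c _ => ?_
  have hlast : (fun a => oneQubitLayer (singleGate (Sum.inl q) (C.last (Sum.inl q)))
      (runSteps C.steps (oneQubitLayer C.first (basisState (Sum.elim zK zI))))
      (Sum.elim a c)) =
      fun a => lamI C.first zI c * oneQubitLayer (singleGate q (C.last (Sum.inl q)))
        (midK C.steps c (chiK C.first zK)) a := by
    funext a
    have hd : ∀ i : ι, (singleGate (Sum.inl q) (C.last (Sum.inl q)) (Sum.inr i)).IsDiag := by
      intro i
      have : singleGate (Sum.inl q) (C.last (Sum.inl q)) (Sum.inr i) = 1 := by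
        simp [singleGate]
      rw [this]
      exact Matrix.isDiag_one
    rw [oneQubitLayer_elim _ hd]
    have h1 : (∏ i : ι, singleGate (Sum.inl q) (C.last (Sum.inl q)) (Sum.inr i) (c i) (c i))
        = 1 := by
      simp [singleGate]
    have h2 : (fun k : κ => singleGate (Sum.inl q : κ ⊕ ι) (C.last (Sum.inl q)) (Sum.inl k)) =
        singleGate q (C.last (Sum.inl q)) := by
      funext k
      simp [singleGate]
    rw [h1, h2, one_mul]
    have h3 : (fun a' => runSteps C.steps (oneQubitLayer C.first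
        (basisState (Sum.elim zK zI))) (Sum.elim a' c)) =
        fun a' => lamI C.first zI c * midK C.steps c (chiK C.first zK) a' := by
      funext a'
      rw [runSteps_elim _ hdiag]
      have h4 : (fun a'' => oneQubitLayer C.first (basisState (Sum.elim zK zI))
          (Sum.elim a'' c)) = fun a'' => lamI C.first zI c * chiK C.first zK a'' := by
        funext a''
        rw [oneQubitLayer_basisState, Fintype.prod_sum_type]
        simp only [Sum.elim_inl, Sum.elim_inr]
        unfold lamI chiK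
        ring
      rw [h4, midK_smul]
    rw [h3, oneQubitLayer_smul]
  rw [hlast, measProb_smul]
  rfl

theorem normSqSum_chiK (first : κ ⊕ ι → Matrix Bool Bool ℂ)
    (hu : ∀ p, first p ∈ Matrix.unitaryGroup Bool ℂ) (zK : κ → Bool) :
    normSqSum (chiK first zK) = 1 := by
  unfold normSqSum chiK
  simp only [map_prod]
  rw [sum_prod_eq_prod_sum_real (fun k b => Complex.normSq (first (Sum.inl k) b (zK k)))]
  exact Finset.prod_eq_one fun k _ => unitary_col _ (hu _) _

theorem alphaK_nonneg (C : Circuit (κ ⊕ ι)) (q : κ) (b : Bool) (zK : κ → Bool)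
    (c : ι → Bool) : 0 ≤ alphaK C q b zK c :=
  measProb_nonneg _ _ _

theorem alphaK_le_one (C : Circuit (κ ⊕ ι)) (hC : C.WellFormed)
    (hdiag : ∀ s ∈ C.steps, ∀ i : ι, (s.2 (Sum.inr i)).IsDiag) (q : κ) (b : Bool)
    (zK : κ → Bool) (c : ι → Bool) : alphaK C q b zK c ≤ 1 := by
  unfold alphaK
  refine (measProb_le_normSqSum _ _ _).trans ?_
  rw [normSqSum_oneQubitLayer _ (singleGate_mem q _ (hC.2.1 _)),
    normSqSum_midK _ (fun s hs => (hC.2.2 s hs).2) hdiag, normSqSum_chiK _ hC.1]

/-- The bit controlled by the second-part qubits of the gate `S`. -/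
def gateBit (S : Finset (κ ⊕ ι)) (c : ι → Bool) : Prop := ∀ i, Sum.inr i ∈ S → c i = true

/-- The gate `S` touches the first part of the register. -/
def meetsK (S : Finset (κ ⊕ ι)) : Prop := ∃ k : κ, Sum.inl k ∈ S

theorem czSign_elim_iff (S : Finset (κ ⊕ ι)) (a : κ → Bool) (c : ι → Bool) :
    (∀ p ∈ S, Sum.elim a c p = true) ↔
      (∀ k, Sum.inl k ∈ S → a k = true) ∧ gateBit S c := by
  constructor
  · intro h
    exact ⟨fun k hk => h _ hk, fun i hi => h _ hi⟩
  · rintro ⟨h1, h2⟩ p hp
    cases p with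
    | inl k => exact h1 k hp
    | inr i => exact h2 i hp

theorem czSign_congr_bit (S : Finset (κ ⊕ ι)) (a : κ → Bool) (c c' : ι → Bool)
    (h : gateBit S c ↔ gateBit S c') :
    czSign S (Sum.elim a c) = czSign S (Sum.elim a c') := by
  unfold czSign
  have : (∀ p ∈ S, Sum.elim a c p = true) ↔ (∀ p ∈ S, Sum.elim a c' p = true) := by
    rw [czSign_elim_iff, czSign_elim_iff, h]
  simp only [this]

theorem czSign_congr_left (S : Finset (κ ⊕ ι)) (hS : ¬ meetsK S) (a a' : κ → Bool)
    (c : ι → Bool) : czSign S (Sum.elim a c) = czSign S (Sum.elim a' c) := by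
  unfold czSign
  have : (∀ p ∈ S, Sum.elim a c p = true) ↔ (∀ p ∈ S, Sum.elim a' c p = true) := by
    rw [czSign_elim_iff, czSign_elim_iff]
    have h1 : ∀ a'' : κ → Bool, (∀ k, Sum.inl k ∈ S → a'' k = true) :=
      fun a'' k hk => absurd ⟨k, hk⟩ hS
    exact ⟨fun h => ⟨h1 a', h.2⟩, fun h => ⟨h1 a, h.2⟩⟩
  simp only [this]

/-- The constant sign relating the phases of a gate for two contents with equal gate bits. -/
def tauSign (S : Finset (κ ⊕ ι)) (c c' : ι → Bool) : ℂ :=
  czSign S (Sum.elim (fun _ => false) c) * czSign S (Sum.elim (fun _ => false) c')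

theorem czSign_eq_tau (S : Finset (κ ⊕ ι)) (c c' : ι → Bool)
    (h : meetsK S → (gateBit S c ↔ gateBit S c')) (a : κ → Bool) :
    czSign S (Sum.elim a c) = tauSign S c c' * czSign S (Sum.elim a c') := by
  unfold tauSign
  by_cases hS : meetsK S
  · rw [czSign_congr_bit S (fun _ => false) c c' (h hS), czSign_mul_self, one_mul]
    exact czSign_congr_bit S a c c' (h hS)
  · rw [czSign_congr_left S hS a (fun _ => false) c, czSign_congr_left S hS a (fun _ => false) c',
      mul_assoc, czSign_mul_self, mul_one]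

theorem normSq_tauSign (S : Finset (κ ⊕ ι)) (c c' : ι → Bool) :
    Complex.normSq (tauSign S c c') = 1 := by
  unfold tauSign
  rw [Complex.normSq_mul, normSq_czSign, normSq_czSign, one_mul]

theorem stepK_congr (s : Finset (Finset (κ ⊕ ι)) × (κ ⊕ ι → Matrix Bool Bool ℂ))
    (hu : ∀ p, s.2 p ∈ Matrix.unitaryGroup Bool ℂ) (hd : ∀ i, (s.2 (Sum.inr i)).IsDiag)
    (c c' : ι → Bool) (hbits : ∀ S ∈ s.1, meetsK S → (gateBit S c ↔ gateBit S c')) :
    ∃ θ : ℂ, Complex.normSq θ = 1 ∧
      ∀ ξ : StateVec κ, stepK s c ξ = fun a => θ * stepK s c' ξ a := by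
  set D : ℂ := ∏ i, s.2 (Sum.inr i) (c i) (c i) with hD
  set D' : ℂ := ∏ i, s.2 (Sum.inr i) (c' i) (c' i) with hD'
  set T : ℂ := ∏ S ∈ s.1, tauSign S c c' with hT
  have hDn : Complex.normSq D = 1 := normSq_prod_diag (fun i => s.2 (Sum.inr i)) (fun i => hu _) hd c
  have hD'n : Complex.normSq D' = 1 :=
    normSq_prod_diag (fun i => s.2 (Sum.inr i)) (fun i => hu _) hd c'
  have hTn : Complex.normSq T = 1 := by
    rw [hT, map_prod]
    exact Finset.prod_eq_one fun S _ => normSq_tauSign S c c'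
  refine ⟨D * T * (starRingEnd ℂ) D', ?_, ?_⟩
  · rw [Complex.normSq_mul, Complex.normSq_mul, Complex.normSq_conj, hDn, hTn, hD'n]
    norm_num
  · intro ξ
    funext a
    have hprod : (fun a' => (∏ S ∈ s.1, czSign S (Sum.elim a' c)) * ξ a') =
        fun a' => T * ((∏ S ∈ s.1, czSign S (Sum.elim a' c')) * ξ a') := by
      funext a'
      have : (∏ S ∈ s.1, czSign S (Sum.elim a' c)) =
          T * ∏ S ∈ s.1, czSign S (Sum.elim a' c') := by
        rw [hT, ← Finset.prod_mul_distrib]
        exact Finset.prod_congr rfl fun S hS => czSign_eq_tau S c c' (hbits S hS) a'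
      rw [this]
      ring
    have hconj : (starRingEnd ℂ) D' * D' = 1 := by
      rw [← Complex.normSq_eq_conj_mul_self, hD'n]
      simp
    show D * oneQubitLayer (fun k => s.2 (Sum.inl k))
        (fun a' => (∏ S ∈ s.1, czSign S (Sum.elim a' c)) * ξ a') a =
      D * T * (starRingEnd ℂ) D' * (D' * oneQubitLayer (fun k => s.2 (Sum.inl k))
        (fun a' => (∏ S ∈ s.1, czSign S (Sum.elim a' c')) * ξ a') a)
    rw [hprod, oneQubitLayer_smul]
    calc D * (T * oneQubitLayer (fun k => s.2 (Sum.inl k))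
          (fun a' => (∏ S ∈ s.1, czSign S (Sum.elim a' c')) * ξ a') a)
        = D * T * 1 * oneQubitLayer (fun k => s.2 (Sum.inl k))
          (fun a' => (∏ S ∈ s.1, czSign S (Sum.elim a' c')) * ξ a') a := by ring
      _ = D * T * ((starRingEnd ℂ) D' * D') * oneQubitLayer (fun k => s.2 (Sum.inl k))
          (fun a' => (∏ S ∈ s.1, czSign S (Sum.elim a' c')) * ξ a') a := by rw [hconj]
      _ = _ := by ring

theorem midK_congr (steps : List (Finset (Finset (κ ⊕ ι)) × (κ ⊕ ι → Matrix Bool Bool ℂ)))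
    (hu : ∀ s ∈ steps, ∀ p, s.2 p ∈ Matrix.unitaryGroup Bool ℂ)
    (hd : ∀ s ∈ steps, ∀ i, (s.2 (Sum.inr i)).IsDiag) (c c' : ι → Bool)
    (hbits : ∀ s ∈ steps, ∀ S ∈ s.1, meetsK S → (gateBit S c ↔ gateBit S c')) :
    ∃ θ : ℂ, Complex.normSq θ = 1 ∧
      ∀ ξ : StateVec κ, midK steps c ξ = fun a => θ * midK steps c' ξ a := by
  induction steps with
  | nil => exact ⟨1, by simp, fun ξ => by funext a; simp [midK]⟩
  | cons s rest ih =>
    obtain ⟨θ₁, hθ₁, h₁⟩ := stepK_congr s (hu s List.mem_cons_self) (hd s List.mem_cons_self)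
      c c' (hbits s List.mem_cons_self)
    obtain ⟨θ₂, hθ₂, h₂⟩ := ih (fun s' hs' => hu s' (List.mem_cons_of_mem _ hs'))
      (fun s' hs' => hd s' (List.mem_cons_of_mem _ hs'))
      (fun s' hs' => hbits s' (List.mem_cons_of_mem _ hs'))
    refine ⟨θ₂ * θ₁, by rw [Complex.normSq_mul, hθ₁, hθ₂]; norm_num, fun ξ => ?_⟩
    have e1 : midK (s :: rest) c ξ = midK rest c (stepK s c ξ) := rfl
    have e2 : midK (s :: rest) c' ξ = midK rest c' (stepK s c' ξ) := rfl
    rw [e1, e2, h₁ ξ, h₂, midK_smul]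
    funext a
    ring

theorem alphaK_congr (C : Circuit (κ ⊕ ι)) (hC : C.WellFormed)
    (hdiag : ∀ s ∈ C.steps, ∀ i : ι, (s.2 (Sum.inr i)).IsDiag) (q : κ) (b : Bool)
    (zK : κ → Bool) (c c' : ι → Bool)
    (hbits : ∀ s ∈ C.steps, ∀ S ∈ s.1, meetsK S → (gateBit S c ↔ gateBit S c')) :
    alphaK C q b zK c = alphaK C q b zK c' := by
  obtain ⟨θ, hθ, h⟩ := midK_congr C.steps (fun s hs => (hC.2.2 s hs).2) hdiag c c' hbits
  unfold alphaK
  rw [h, oneQubitLayer_smul, measProb_smul, hθ, one_mul]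

end Vale.Agent.Lib.P368
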