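import Vale.Agent.Lib.P368.Layer

namespace Vale.Agent.Lib.P368

open Finset

variable {κ ι : Type} [Fintype κ] [DecidableEq κ] [Fintype ι] [DecidableEq ι]

/-- Sums over basis states of a two-part register split. -/
theorem sum_sumElim {M : Type*} [AddCommMonoid M] (f : (κ ⊕ ι → Bool) → M) :
    ∑ z, f z = ∑ a : κ → Bool, ∑ c : ι → Bool, f (Sum.elim a c) := by
  rw [← Fintype.sum_prod_type']
  refine Fintype.sum_equiv (Equiv.sumArrowEquivProdArrow κ ι Bool) _ _ (fun z => ?_)
  simp [Equiv.sumArrowEquivProdArrow]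

/-- A layer of one-qubit gates which is diagonal on the second part acts fibrewise. -/
theorem oneQubitLayer_elim (u : κ ⊕ ι → Matrix Bool Bool ℂ)
    (hdiag : ∀ i, (u (Sum.inr i)).IsDiag) (ψ : StateVec (κ ⊕ ι)) (a : κ → Bool)
    (c : ι → Bool) :
    oneQubitLayer u ψ (Sum.elim a c) =
      (∏ i, u (Sum.inr i) (c i) (c i)) *
        oneQubitLayer (fun k => u (Sum.inl k)) (fun a' => ψ (Sum.elim a' c)) a := by
  rw [oneQubitLayer_apply, sum_sumElim, oneQubitLayer_apply, Finset.mul_sum]
  refine Finset.sum_congr rfl fun a' _ => ?_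
  rw [Finset.sum_eq_single c]
  · rw [Fintype.prod_sum_type]
    simp only [Sum.elim_inl, Sum.elim_inr]
    ring
  · intro c' _ hc'
    obtain ⟨i, hi⟩ : ∃ i, c i ≠ c' i := by
      by_contra h
      exact hc' (funext fun i => (not_not.mp (not_exists.mp h i)).symm)
    have h0 : (∏ p, u p (Sum.elim a c p) (Sum.elim a' c' p)) = 0 := by
      apply Finset.prod_eq_zero (Finset.mem_univ (Sum.inr i))
      simp only [Sum.elim_inr]
      exact hdiag i hi
    rw [h0, zero_mul]
  · intro h
    exact absurd (Finset.mem_univ c) h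

/-- One round of the circuit, conditioned on the content `c` of the second part of the
register, as an operation on states of the first part. -/
noncomputable def stepK (s : Finset (Finset (κ ⊕ ι)) × (κ ⊕ ι → Matrix Bool Bool ℂ))
    (c : ι → Bool) (ξ : StateVec κ) : StateVec κ :=
  fun a => (∏ i, s.2 (Sum.inr i) (c i) (c i)) *
    oneQubitLayer (fun k => s.2 (Sum.inl k))
      (fun a' => (∏ S ∈ s.1, czSign S (Sum.elim a' c)) * ξ a') a

/-- All rounds, conditioned on `c`. -/
noncomputable def midK (steps : List (Finset (Finset (κ ⊕ ι)) × (κ ⊕ ι → Matrix Bool Bool ℂ)))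
    (c : ι → Bool) (ξ : StateVec κ) : StateVec κ :=
  steps.foldl (fun φ s => stepK s c φ) ξ

theorem runSteps_elim (steps : List (Finset (Finset (κ ⊕ ι)) × (κ ⊕ ι → Matrix Bool Bool ℂ)))
    (hdiag : ∀ s ∈ steps, ∀ i, (s.2 (Sum.inr i)).IsDiag) (ψ : StateVec (κ ⊕ ι))
    (a : κ → Bool) (c : ι → Bool) :
    runSteps steps ψ (Sum.elim a c) = midK steps c (fun a' => ψ (Sum.elim a' c)) a := by
  induction steps generalizing ψ a with
  | nil => rfl
  | cons s rest ih =>
    have h1 := ih (fun s' hs' => hdiag s' (List.mem_cons_of_mem _ hs'))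
      (oneQubitLayer s.2 (czLayer s.1 ψ)) a
    have h2 : runSteps (s :: rest) ψ = runSteps rest (oneQubitLayer s.2 (czLayer s.1 ψ)) := rfl
    have h3 : midK (s :: rest) c (fun a' => ψ (Sum.elim a' c)) =
        midK rest c (stepK s c (fun a' => ψ (Sum.elim a' c))) := rfl
    rw [h2, h3, h1]
    congr 1
    funext a'
    rw [oneQubitLayer_elim _ (hdiag s List.mem_cons_self)]
    rfl

theorem stepK_smul (s : Finset (Finset (κ ⊕ ι)) × (κ ⊕ ι → Matrix Bool Bool ℂ))
    (c : ι → Bool) (t : ℂ) (ξ : StateVec κ) :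
    stepK s c (fun a => t * ξ a) = fun a => t * stepK s c ξ a := by
  funext a
  unfold stepK
  have : (fun a' => (∏ S ∈ s.1, czSign S (Sum.elim a' c)) * (t * ξ a')) =
      fun a' => t * ((∏ S ∈ s.1, czSign S (Sum.elim a' c)) * ξ a') := by
    funext a'
    ring
  rw [this, oneQubitLayer_smul]
  ring

theorem midK_smul (steps : List (Finset (Finset (κ ⊕ ι)) × (κ ⊕ ι → Matrix Bool Bool ℂ)))
    (c : ι → Bool) (t : ℂ) (ξ : StateVec κ) :
    midK steps c (fun a => t * ξ a) = fun a => t * midK steps c ξ a := by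
  induction steps generalizing ξ with
  | nil => rfl
  | cons s rest ih =>
    have h1 : midK (s :: rest) c (fun a => t * ξ a) =
        midK rest c (stepK s c (fun a => t * ξ a)) := rfl
    have h2 : midK (s :: rest) c ξ = midK rest c (stepK s c ξ) := rfl
    rw [h1, h2, stepK_smul, ih]

/-- Column sums of squared moduli of a unitary `2 × 2` matrix. -/
theorem unitary_col (u : Matrix Bool Bool ℂ) (hu : u ∈ Matrix.unitaryGroup Bool ℂ) (j : Bool) :
    ∑ b : Bool, Complex.normSq (u b j) = 1 := by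
  have h := (Matrix.mem_unitaryGroup_iff').mp hu
  have h2 := congrFun (congrFun h j) j
  rw [Matrix.mul_apply] at h2
  simp only [Matrix.star_apply, Matrix.one_apply_eq] at h2
  apply Complex.ofReal_injective
  push_cast
  rw [← h2]
  refine Finset.sum_congr rfl fun b _ => ?_
  rw [Complex.normSq_eq_conj_mul_self]
  rfl

/-- Diagonal entries of a diagonal unitary matrix are unimodular. -/
theorem unitary_diag (u : Matrix Bool Bool ℂ) (hu : u ∈ Matrix.unitaryGroup Bool ℂ)
    (hd : u.IsDiag) (j : Bool) : Complex.normSq (u j j) = 1 := by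
  have h := unitary_col u hu j
  rw [Fintype.sum_bool] at h
  cases j
  · have h0 : u true false = 0 := hd (by decide)
    rw [h0] at h
    simpa using h
  · have h0 : u false true = 0 := hd (by decide)
    rw [h0] at h
    simpa using h

theorem normSq_prod_diag (u : ι → Matrix Bool Bool ℂ)
    (hu : ∀ i, u i ∈ Matrix.unitaryGroup Bool ℂ) (hd : ∀ i, (u i).IsDiag) (c : ι → Bool) :
    Complex.normSq (∏ i, u i (c i) (c i)) = 1 := by
  rw [map_prod]
  exact Finset.prod_eq_one fun i _ => unitary_diag (u i) (hu i) (hd i) (c i)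

theorem normSqSum_smul (t : ℂ) (ξ : StateVec κ) :
    normSqSum (fun a => t * ξ a) = Complex.normSq t * normSqSum ξ := by
  unfold normSqSum
  rw [Finset.mul_sum]
  exact Finset.sum_congr rfl fun a _ => Complex.normSq_mul _ _

theorem normSqSum_stepK (s : Finset (Finset (κ ⊕ ι)) × (κ ⊕ ι → Matrix Bool Bool ℂ))
    (hu : ∀ p, s.2 p ∈ Matrix.unitaryGroup Bool ℂ) (hd : ∀ i, (s.2 (Sum.inr i)).IsDiag)
    (c : ι → Bool) (ξ : StateVec κ) : normSqSum (stepK s c ξ) = normSqSum ξ := by
  have h1 : stepK s c ξ = fun a => (∏ i, s.2 (Sum.inr i) (c i) (c i)) *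
      oneQubitLayer (fun k => s.2 (Sum.inl k))
        (fun a' => (∏ S ∈ s.1, czSign S (Sum.elim a' c)) * ξ a') a := rfl
  rw [h1, normSqSum_smul,
    normSq_prod_diag (fun i => s.2 (Sum.inr i)) (fun i => hu _) hd c, one_mul,
    normSqSum_oneQubitLayer _ (fun k => hu _)]
  unfold normSqSum
  refine Finset.sum_congr rfl fun a _ => ?_
  rw [Complex.normSq_mul, map_prod, Finset.prod_eq_one (fun S _ => normSq_czSign S _), one_mul]

theorem normSqSum_midK (steps : List (Finset (Finset (κ ⊕ ι)) × (κ ⊕ ι → Matrix Bool Bool ℂ)))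
    (hu : ∀ s ∈ steps, ∀ p, s.2 p ∈ Matrix.unitaryGroup Bool ℂ)
    (hd : ∀ s ∈ steps, ∀ i, (s.2 (Sum.inr i)).IsDiag)
    (c : ι → Bool) (ξ : StateVec κ) : normSqSum (midK steps c ξ) = normSqSum ξ := by
  induction steps generalizing ξ with
  | nil => rfl
  | cons s rest ih =>
    have h2 : midK (s :: rest) c ξ = midK rest c (stepK s c ξ) := rfl
    rw [h2, ih (fun s' hs' => hu s' (List.mem_cons_of_mem _ hs'))
      (fun s' hs' => hd s' (List.mem_cons_of_mem _ hs')),
      normSqSum_stepK s (hu s List.mem_cons_self) (hd s List.mem_cons_self)]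

end Vale.Agent.Lib.P368
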