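import Vale.Agent.Lib.P368.Circuit

namespace Vale.Agent.Lib.P368

open Finset

variable {Q : Type} [Fintype Q] [DecidableEq Q]

theorem oneQubitLayer_apply (u : Q → Matrix Bool Bool ℂ) (ψ : StateVec Q) (z : Q → Bool) :
    oneQubitLayer u ψ z = ∑ w : Q → Bool, (∏ p, u p (z p) (w p)) * ψ w := rfl

theorem prod_one_apply (z w : Q → Bool) :
    (∏ p, (1 : Matrix Bool Bool ℂ) (z p) (w p)) = if z = w then 1 else 0 := by
  simp only [Matrix.one_apply]
  rw [Finset.prod_ite_zero]
  simp [funext_iff]

theorem oneQubitLayer_one (ψ : StateVec Q) :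
    oneQubitLayer (fun _ => (1 : Matrix Bool Bool ℂ)) ψ = ψ := by
  funext z
  simp only [oneQubitLayer_apply, prod_one_apply]
  simp

theorem sum_prod_eq_prod_sum (f : Q → Bool → ℂ) :
    (∑ w : Q → Bool, ∏ p, f p (w p)) = ∏ p, ∑ b : Bool, f p b := by
  rw [Finset.prod_univ_sum, Fintype.piFinset_univ]

theorem sum_prod_eq_prod_sum_real (f : Q → Bool → ℝ) :
    (∑ w : Q → Bool, ∏ p, f p (w p)) = ∏ p, ∑ b : Bool, f p b := by
  rw [Finset.prod_univ_sum, Fintype.piFinset_univ]

theorem oneQubitLayer_comp (u v : Q → Matrix Bool Bool ℂ) (ψ : StateVec Q) :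
    oneQubitLayer u (oneQubitLayer v ψ) = oneQubitLayer (fun p => u p * v p) ψ := by
  funext z
  simp only [oneQubitLayer_apply, Finset.mul_sum]
  rw [Finset.sum_comm]
  refine Finset.sum_congr rfl fun w' _ => ?_
  have h : (∏ p, (u p * v p) (z p) (w' p)) =
      ∑ w : Q → Bool, ∏ p, u p (z p) (w p) * v p (w p) (w' p) := by
    rw [sum_prod_eq_prod_sum (fun p b => u p (z p) b * v p b (w' p))]
    simp only [Matrix.mul_apply]
  rw [h, Finset.sum_mul]
  refine Finset.sum_congr rfl fun w _ => ?_
  rw [Finset.prod_mul_distrib]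
  ring

theorem oneQubitLayer_smul (u : Q → Matrix Bool Bool ℂ) (t : ℂ) (ψ : StateVec Q) :
    oneQubitLayer u (fun z => t * ψ z) = fun z => t * oneQubitLayer u ψ z := by
  funext z
  simp only [oneQubitLayer_apply, Finset.mul_sum]
  refine Finset.sum_congr rfl fun w _ => ?_
  ring

/-- Adjoint identity for a layer of one-qubit gates. -/
theorem inner_oneQubitLayer (u : Q → Matrix Bool Bool ℂ) (φ ψ : StateVec Q) :
    (∑ z, (starRingEnd ℂ) (φ z) * oneQubitLayer u ψ z) =
      ∑ z, (starRingEnd ℂ) (oneQubitLayer (fun p => (u p).conjTranspose) φ z) * ψ z := by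
  simp only [oneQubitLayer_apply, Finset.mul_sum, map_sum, Finset.sum_mul, map_mul, map_prod]
  rw [Finset.sum_comm]
  refine Finset.sum_congr rfl fun w _ => ?_
  refine Finset.sum_congr rfl fun z _ => ?_
  have : (∏ p, (starRingEnd ℂ) ((u p).conjTranspose (w p) (z p))) = ∏ p, u p (z p) (w p) := by
    refine Finset.prod_congr rfl fun p _ => ?_
    simp [Matrix.conjTranspose_apply]
  rw [this]
  ring

/-- Total squared norm of a state vector. -/
noncomputable def normSqSum (ψ : StateVec Q) : ℝ := ∑ z, Complex.normSq (ψ z)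

theorem normSqSum_cast (ψ : StateVec Q) :
    ((normSqSum ψ : ℝ) : ℂ) = ∑ z, (starRingEnd ℂ) (ψ z) * ψ z := by
  unfold normSqSum
  push_cast
  refine Finset.sum_congr rfl fun z _ => ?_
  rw [Complex.normSq_eq_conj_mul_self]

/-- A layer of one-qubit unitaries preserves the total squared norm. -/
theorem normSqSum_oneQubitLayer (u : Q → Matrix Bool Bool ℂ)
    (hu : ∀ p, u p ∈ Matrix.unitaryGroup Bool ℂ) (ψ : StateVec Q) :
    normSqSum (oneQubitLayer u ψ) = normSqSum ψ := by
  apply Complex.ofReal_injective
  rw [normSqSum_cast, normSqSum_cast, inner_oneQubitLayer, oneQubitLayer_comp]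
  have : (fun p => (u p).conjTranspose * u p) = fun _ => (1 : Matrix Bool Bool ℂ) := by
    funext p
    have := (Matrix.mem_unitaryGroup_iff').mp (hu p)
    rwa [Matrix.star_eq_conjTranspose] at this
  rw [this, oneQubitLayer_one]

theorem measProb_nonneg (ψ : StateVec Q) (q : Q) (b : Bool) : 0 ≤ measProb ψ q b := by
  unfold measProb
  refine Finset.sum_nonneg fun z _ => ?_
  split_ifs
  · exact Complex.normSq_nonneg _
  · exact le_rfl

theorem measProb_le_normSqSum (ψ : StateVec Q) (q : Q) (b : Bool) :
    measProb ψ q b ≤ normSqSum ψ := by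
  unfold measProb normSqSum
  refine Finset.sum_le_sum fun z _ => ?_
  split_ifs
  · exact le_rfl
  · exact Complex.normSq_nonneg _

theorem measProb_add (ψ : StateVec Q) (q : Q) :
    measProb ψ q true + measProb ψ q false = normSqSum ψ := by
  unfold measProb normSqSum
  rw [← Finset.sum_add_distrib]
  refine Finset.sum_congr rfl fun z _ => ?_
  cases h : z q <;> simp

theorem measProb_smul (t : ℂ) (ψ : StateVec Q) (q : Q) (b : Bool) :
    measProb (fun z => t * ψ z) q b = Complex.normSq t * measProb ψ q b := by
  unfold measProb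
  rw [Finset.mul_sum]
  refine Finset.sum_congr rfl fun z _ => ?_
  split_ifs
  · rw [Complex.normSq_mul]
  · simp

/-- The state restricted to the basis states with `z q = b`. -/
def restrictBit (ψ : StateVec Q) (q : Q) (b : Bool) : StateVec Q :=
  fun z => if z q = b then ψ z else 0

theorem normSqSum_restrictBit (ψ : StateVec Q) (q : Q) (b : Bool) :
    normSqSum (restrictBit ψ q b) = measProb ψ q b := by
  unfold normSqSum measProb restrictBit
  refine Finset.sum_congr rfl fun z _ => ?_
  split_ifs <;> simp

/-- A layer acting trivially on qubit `q` commutes with restriction to `z q = b`. -/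
theorem oneQubitLayer_restrictBit (u : Q → Matrix Bool Bool ℂ) (q : Q) (hq : u q = 1)
    (ψ : StateVec Q) (b : Bool) :
    oneQubitLayer u (restrictBit ψ q b) = restrictBit (oneQubitLayer u ψ) q b := by
  funext z
  unfold restrictBit
  simp only [oneQubitLayer_apply]
  by_cases hz : z q = b
  · rw [if_pos hz]
    refine Finset.sum_congr rfl fun w _ => ?_
    by_cases hw : w q = b
    · rw [if_pos hw]
    · rw [if_neg hw]
      have h0 : (∏ p, u p (z p) (w p)) = 0 := by
        apply Finset.prod_eq_zero (Finset.mem_univ q)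
        rw [hq, Matrix.one_apply_ne]
        rw [hz]
        exact fun h => hw h.symm
      rw [h0]
      simp
  · rw [if_neg hz]
    apply Finset.sum_eq_zero
    intro w _
    by_cases hw : w q = b
    · have h0 : (∏ p, u p (z p) (w p)) = 0 := by
        apply Finset.prod_eq_zero (Finset.mem_univ q)
        rw [hq, Matrix.one_apply_ne]
        rw [hw]
        exact hz
      rw [h0]
      simp
    · rw [if_neg hw]
      simp

/-- The layer consisting of the single gate `m` on qubit `q`. -/
def singleGate (q : Q) (m : Matrix Bool Bool ℂ) : Q → Matrix Bool Bool ℂ :=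
  fun p => if p = q then m else 1

/-- Locality of the measurement: in the last layer only the gate on the measured qubit
matters. -/
theorem measProb_oneQubitLayer_local (u : Q → Matrix Bool Bool ℂ)
    (hu : ∀ p, u p ∈ Matrix.unitaryGroup Bool ℂ) (ψ : StateVec Q) (q : Q) (b : Bool) :
    measProb (oneQubitLayer u ψ) q b = measProb (oneQubitLayer (singleGate q (u q)) ψ) q b := by
  set u' : Q → Matrix Bool Bool ℂ := fun p => if p = q then 1 else u p with hu'def
  have hfac : u = fun p => u' p * singleGate q (u q) p := by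
    funext p
    by_cases h : p = q
    · simp [hu'def, singleGate, h]
    · simp [hu'def, singleGate, h]
  have hu' : ∀ p, u' p ∈ Matrix.unitaryGroup Bool ℂ := by
    intro p
    by_cases h : p = q
    · simp only [hu'def, h, if_true]
      exact one_mem _
    · simp only [hu'def, h, if_false]
      exact hu p
  have hq : u' q = 1 := by simp [hu'def]
  have e : oneQubitLayer u ψ = oneQubitLayer u' (oneQubitLayer (singleGate q (u q)) ψ) := by
    rw [oneQubitLayer_comp, ← hfac]
  rw [e, ← normSqSum_restrictBit, ← oneQubitLayer_restrictBit u' q hq,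
    normSqSum_oneQubitLayer u' hu', normSqSum_restrictBit]

/-- A layer of multi-controlled `Z` gates preserves squared moduli pointwise. -/
theorem czSign_mul_self (S : Finset Q) (z : Q → Bool) : czSign S z * czSign S z = 1 := by
  unfold czSign
  split_ifs <;> norm_num

theorem normSq_czSign (S : Finset Q) (z : Q → Bool) : Complex.normSq (czSign S z) = 1 := by
  unfold czSign
  split_ifs <;> simp

theorem normSq_czLayer (L : Finset (Finset Q)) (ψ : StateVec Q) (z : Q → Bool) :
    Complex.normSq (czLayer L ψ z) = Complex.normSq (ψ z) := by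
  unfold czLayer
  rw [Complex.normSq_mul, map_prod]
  rw [Finset.prod_eq_one (fun S _ => normSq_czSign S z), one_mul]

theorem normSqSum_czLayer (L : Finset (Finset Q)) (ψ : StateVec Q) :
    normSqSum (czLayer L ψ) = normSqSum ψ := by
  unfold normSqSum
  exact Finset.sum_congr rfl fun z _ => normSq_czLayer L ψ z

theorem normSqSum_basisState (z : Q → Bool) : normSqSum (basisState z) = 1 := by
  unfold normSqSum basisState
  simp

end Vale.Agent.Lib.P368
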