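import Vale.Agent.Lib.P368.Decomp
import Vale.Agent.Lib.P368.Comb

namespace Vale.Agent.Lib.P368

open Finset

/-- The sign `(-1)^{|x|}` of a bit string. -/
def sgn {α : Type} [Fintype α] (x : α → Bool) : ℝ := ∏ a, (if x a = true then (-1 : ℝ) else 1)

theorem sgn_eq_parity {α : Type} [Fintype α] (x : α → Bool) :
    sgn x = if parity x = true then -1 else 1 := by
  unfold sgn parity
  rw [Finset.prod_ite, Finset.prod_const_one, mul_one, Finset.prod_const]
  by_cases h : Odd (univ.filter fun a => x a = true).card
  · simp [h, Odd.neg_one_pow h]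
  · simp [h, Even.neg_one_pow (Nat.not_odd_iff_even.mp h)]

theorem abs_sgn {α : Type} [Fintype α] (x : α → Bool) : |sgn x| = 1 := by
  unfold sgn
  rw [Finset.abs_prod]
  apply Finset.prod_eq_one
  intro a _
  split_ifs <;> simp

theorem sgn_elim {α β : Type} [Fintype α] [Fintype β] (x : α → Bool) (y : β → Bool) :
    sgn (Sum.elim x y) = sgn x * sgn y := by
  unfold sgn
  rw [Fintype.prod_sum_type]
  rfl

section Main

variable {κ ι : Type} [Fintype κ] [DecidableEq κ] [Fintype ι] [DecidableEq ι]

theorem extend_sumMap {nK nI : ℕ} (inK : Fin nK ↪ κ) (inI : Fin nI ↪ ι)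
    (x : Fin nK ⊕ Fin nI → Bool) :
    Function.extend (inK.sumMap inI) x (fun _ => false) =
      Sum.elim (Function.extend inK (fun j => x (Sum.inl j)) (fun _ => false))
        (Function.extend inI (fun j => x (Sum.inr j)) (fun _ => false)) := by
  funext p
  cases p with
  | inl k =>
    simp only [Sum.elim_inl]
    by_cases h : ∃ j, inK j = k
    · obtain ⟨j, rfl⟩ := h
      have e : (Sum.inl (inK j) : κ ⊕ ι) = (inK.sumMap inI) (Sum.inl j) := rfl
      rw [e, (inK.sumMap inI).injective.extend_apply, inK.injective.extend_apply]
    · rw [Function.extend_apply' _ _ _ h, Function.extend_apply']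
      rintro ⟨a, ha⟩
      cases a with
      | inl j => exact h ⟨j, Sum.inl_injective ha⟩
      | inr j => exact Sum.inr_ne_inl ha
  | inr i =>
    simp only [Sum.elim_inr]
    by_cases h : ∃ j, inI j = i
    · obtain ⟨j, rfl⟩ := h
      have e : (Sum.inr (inI j) : κ ⊕ ι) = (inK.sumMap inI) (Sum.inr j) := rfl
      rw [e, (inK.sumMap inI).injective.extend_apply, inI.injective.extend_apply]
    · rw [Function.extend_apply' _ _ _ h, Function.extend_apply']
      rintro ⟨a, ha⟩
      cases a with
      | inl j => exact Sum.inl_ne_inr ha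
      | inr j => exact h ⟨j, Sum.inr_injective ha⟩

theorem bitR_eq_prod (D : Finset ι) (c : ι → Bool) :
    bitR D c = ∏ i, (if i ∈ D then (if c i = true then (1 : ℝ) else 0) else 1) := by
  have h1 : ∀ i, (if i ∈ D then (if c i = true then (1 : ℝ) else 0) else 1) =
      if (i ∈ D → c i = true) then 1 else 0 := by
    intro i
    by_cases hi : i ∈ D
    · by_cases hc : c i = true
      · simp [hi, hc]
      · simp [hi, hc]
    · simp [hi]
  simp only [h1]
  rw [Finset.prod_ite_zero]
  unfold bitR
  simp

/-- The second-part qubits of a gate. -/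
def cov (S : Finset (κ ⊕ ι)) : Finset ι := univ.filter fun i => Sum.inr i ∈ S

theorem gateBit_iff_cov (S : Finset (κ ⊕ ι)) (c : ι → Bool) :
    gateBit S c ↔ ∀ i ∈ cov S, c i = true := by
  unfold gateBit cov
  simp

/-- Gates of one layer touching the first part are at most `|κ|` many. -/
theorem card_filter_meetsK_le (L : Finset (Finset (κ ⊕ ι)))
    (hL : (L : Set (Finset (κ ⊕ ι))).PairwiseDisjoint id) (q : κ) :
    (by classical exact (L.filter fun S => meetsK S).card) ≤ Fintype.card κ := by
  classical
  set f : Finset (κ ⊕ ι) → κ := fun S => if h : meetsK S then Classical.choose h else q with hf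
  have hfS : ∀ S, meetsK S → Sum.inl (f S) ∈ S := by
    intro S hS
    have : f S = Classical.choose hS := by
      rw [hf]
      simp only
      rw [dif_pos hS]
    rw [this]
    exact Classical.choose_spec hS
  rw [← Finset.card_univ]
  refine Finset.card_le_card_of_injOn f (fun S _ => Finset.mem_univ _) ?_
  intro S hS S' hS' hSS'
  have hS1 := Finset.mem_filter.mp (Finset.mem_coe.mp hS)
  have hS1' := Finset.mem_filter.mp (Finset.mem_coe.mp hS')
  by_contra hne
  have hdisj : Disjoint S S' := hL (Finset.mem_coe.mpr hS1.1) (Finset.mem_coe.mpr hS1'.1) hne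
  have h1 := hfS S hS1.2
  have h2 := hfS S' hS1'.2
  rw [hSS'] at h1
  exact (Finset.disjoint_left.mp hdisj h1) h2

/-- The key estimate: the signed sum over the inputs located in the second part. -/
theorem inner_bound (C : Circuit (κ ⊕ ι)) (hC : C.WellFormed)
    (hdiag : ∀ s ∈ C.steps, ∀ i : ι, (s.2 (Sum.inr i)).IsDiag) (q : κ) (b : Bool)
    {nI : ℕ} (inI : Fin nI ↪ ι) (zK : κ → Bool) :
    |∑ xI : Fin nI → Bool, sgn xI * measProb (C.run (basisState
        (Sum.elim zK (Function.extend inI xI (fun _ => false))))) (Sum.inl q) b| ≤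
      3 ^ (C.steps.length * Fintype.card κ) := by
  classical
  set ν : (ι → Bool) → ℝ := fun c => ∑ xI : Fin nI → Bool, sgn xI *
    Complex.normSq (lamI C.first (Function.extend inI xI (fun _ => false)) c) with hν
  have hrew : (∑ xI : Fin nI → Bool, sgn xI * measProb (C.run (basisState
        (Sum.elim zK (Function.extend inI xI (fun _ => false))))) (Sum.inl q) b) =
      ∑ c, ν c * alphaK C q b zK c := by
    simp only [outProb_decomp C hC hdiag, hν, Finset.mul_sum, Finset.sum_mul]
    rw [Finset.sum_comm]
    refine Finset.sum_congr rfl fun c _ => ?_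
    refine Finset.sum_congr rfl fun x _ => ?_
    ring
  rw [hrew]
  set B : Finset (Finset ι) :=
    C.steps.toFinset.biUnion (fun s => ((s.1.filter fun S => meetsK S).image cov)) with hB
  have hBcard : B.card ≤ C.steps.length * Fintype.card κ := by
    calc B.card ≤ ∑ s ∈ C.steps.toFinset, ((s.1.filter fun S => meetsK S).image cov).card :=
          Finset.card_biUnion_le
      _ ≤ ∑ s ∈ C.steps.toFinset, Fintype.card κ := by
          refine Finset.sum_le_sum fun s hs => ?_
          refine Finset.card_image_le.trans ?_
          have := card_filter_meetsK_le s.1 (hC.2.2 s (List.mem_toFinset.mp hs)).1 q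
          convert this
      _ = C.steps.toFinset.card * Fintype.card κ := by rw [Finset.sum_const, smul_eq_mul]
      _ ≤ C.steps.length * Fintype.card κ :=
          Nat.mul_le_mul_right _ (List.toFinset_card_le _)
  have hmain : |∑ c, ν c * alphaK C q b zK c| ≤ 3 ^ B.card := by
    apply comb_bound B (alphaK C q b zK) ν
    · intro c
      rw [abs_le]
      exact ⟨by linarith [alphaK_nonneg C q b zK c], alphaK_le_one C hC hdiag q b zK c⟩
    · intro c c' hcc'
      apply alphaK_congr C hC hdiag
      intro s hs S hS hmeet
      rw [gateBit_iff_cov, gateBit_iff_cov]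
      apply hcc'
      rw [hB]
      refine Finset.mem_biUnion.mpr ⟨s, List.mem_toFinset.mpr hs, ?_⟩
      exact Finset.mem_image_of_mem _ (Finset.mem_filter.mpr ⟨hS, hmeet⟩)
    · intro D
      set w : ι → Bool → ℝ := fun i e => ∑ b' : Bool, Complex.normSq (C.first (Sum.inr i) b' e) *
        (if i ∈ D then (if b' = true then (1 : ℝ) else 0) else 1) with hw
      have hw0 : ∀ i e, 0 ≤ w i e := by
        intro i e
        rw [hw]
        refine Finset.sum_nonneg fun b' _ => mul_nonneg (Complex.normSq_nonneg _) ?_
        split_ifs <;> norm_num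
      have hw1 : ∀ i e, w i e ≤ 1 := by
        intro i e
        have hcol := unitary_col (C.first (Sum.inr i)) (hC.1 _) e
        have hle : w i e ≤ ∑ b' : Bool, Complex.normSq (C.first (Sum.inr i) b' e) := by
          rw [hw]
          refine Finset.sum_le_sum fun b' _ => ?_
          have hn := Complex.normSq_nonneg (C.first (Sum.inr i) b' e)
          split_ifs
          · linarith
          · linarith
          · linarith
        linarith
      have hrew2 : (∑ c, ν c * bitR D c) = ∑ x : Fin nI → Bool,
          (∏ j, (if x j = true then (-1 : ℝ) else 1)) *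
            ∏ i, w i (Function.extend inI x (fun _ => false) i) := by
        simp only [hν, Finset.sum_mul]
        rw [Finset.sum_comm]
        refine Finset.sum_congr rfl fun x _ => ?_
        have e1 : ∀ c : ι → Bool, sgn x * Complex.normSq
            (lamI C.first (Function.extend inI x (fun _ => false)) c) * bitR D c =
            sgn x * ∏ i, (Complex.normSq (C.first (Sum.inr i) (c i)
              (Function.extend inI x (fun _ => false) i)) *
              (if i ∈ D then (if c i = true then (1 : ℝ) else 0) else 1)) := by
          intro c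
          rw [bitR_eq_prod, Finset.prod_mul_distrib]
          unfold lamI
          rw [map_prod]
          ring
        simp only [e1]
        rw [← Finset.mul_sum, sum_prod_eq_prod_sum_real (fun i b' =>
          Complex.normSq (C.first (Sum.inr i) b' (Function.extend inI x (fun _ => false) i)) *
            (if i ∈ D then (if b' = true then (1 : ℝ) else 0) else 1))]
        rfl
      rw [hrew2]
      exact signed_sum_bound inI w hw0 hw1
  exact hmain.trans (pow_le_pow_right₀ (by norm_num) hBcard)

/-- The signed sum of output probabilities over all inputs. -/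
theorem total_bound (C : Circuit (κ ⊕ ι)) (hC : C.WellFormed)
    (hdiag : ∀ s ∈ C.steps, ∀ i : ι, (s.2 (Sum.inr i)).IsDiag) (q : κ) (b : Bool)
    {nK nI : ℕ} (inK : Fin nK ↪ κ) (inI : Fin nI ↪ ι) :
    |∑ x : Fin nK ⊕ Fin nI → Bool, sgn x * C.outProb (inK.sumMap inI) (Sum.inl q) x b| ≤
      2 ^ nK * 3 ^ (C.steps.length * Fintype.card κ) := by
  rw [sum_sumElim]
  have h1 : ∀ (xK : Fin nK → Bool) (xI : Fin nI → Bool),
      sgn (Sum.elim xK xI) * C.outProb (inK.sumMap inI) (Sum.inl q) (Sum.elim xK xI) b =
      sgn xK * (sgn xI * measProb (C.run (basisState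
        (Sum.elim (Function.extend inK xK (fun _ => false))
          (Function.extend inI xI (fun _ => false))))) (Sum.inl q) b) := by
    intro xK xI
    unfold Circuit.outProb
    rw [extend_sumMap, sgn_elim]
    simp only [Sum.elim_inl, Sum.elim_inr]
    ring
  simp only [h1, ← Finset.mul_sum]
  refine (Finset.abs_sum_le_sum_abs _ _).trans ?_
  calc ∑ xK : Fin nK → Bool, |sgn xK * ∑ xI : Fin nI → Bool, sgn xI * measProb (C.run
          (basisState (Sum.elim (Function.extend inK xK (fun _ => false))
            (Function.extend inI xI (fun _ => false))))) (Sum.inl q) b|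
      ≤ ∑ _xK : Fin nK → Bool, (3 : ℝ) ^ (C.steps.length * Fintype.card κ) := by
        refine Finset.sum_le_sum fun xK _ => ?_
        rw [abs_mul, abs_sgn, one_mul]
        exact inner_bound C hC hdiag q b inI _
    _ = 2 ^ nK * 3 ^ (C.steps.length * Fintype.card κ) := by
        rw [Finset.sum_const, Finset.card_univ, nsmul_eq_mul]
        simp

end Main

section Normalisation

variable {Q : Type} [Fintype Q] [DecidableEq Q]

theorem normSqSum_runSteps (steps : List (Finset (Finset Q) × (Q → Matrix Bool Bool ℂ)))
    (hu : ∀ s ∈ steps, ∀ p, s.2 p ∈ Matrix.unitaryGroup Bool ℂ) (ψ : StateVec Q) :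
    normSqSum (runSteps steps ψ) = normSqSum ψ := by
  induction steps generalizing ψ with
  | nil => rfl
  | cons s rest ih =>
    have h2 : runSteps (s :: rest) ψ = runSteps rest (oneQubitLayer s.2 (czLayer s.1 ψ)) := rfl
    rw [h2, ih (fun s' hs' => hu s' (List.mem_cons_of_mem _ hs')),
      normSqSum_oneQubitLayer _ (hu s List.mem_cons_self), normSqSum_czLayer]

/-- The two output probabilities of a well-formed circuit add up to `1`. -/
theorem outProb_add (C : Circuit Q) (hC : C.WellFormed) {α : Type} (inp : α ↪ Q) (q : Q)
    (x : α → Bool) : C.outProb inp q x true + C.outProb inp q x false = 1 := by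
  unfold Circuit.outProb
  rw [measProb_add]
  unfold Circuit.run
  rw [normSqSum_oneQubitLayer _ hC.2.1, normSqSum_runSteps _ (fun s hs => (hC.2.2 s hs).2),
    normSqSum_oneQubitLayer _ hC.1, normSqSum_basisState]

end Normalisation

end Vale.Agent.Lib.P368
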